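import Claimed.Agent.R282.Rep.R.Weyl.Cas

/-!
# Row 282, Rep, package BP-REP-W, file 5b : the Casimir operator on a weight vector (helper139; no sorry of its own)
`rwy_cas_wt` : `casimir x = ⟨χ, χ + 2ρ⟩ x + ∑_(β > 0 in RootD) e_β^* e_β x` for `x` of weight `χ`, from `rwy_cas_normal`, `rwy_posSum_dot`.
-/

set_option autoImplicit false

namespace Claimed.Agent.R282

open Claims.C0456 Matrix

variable {n : ℕ}
variable {ι : Type} [Fintype ι] [DecidableEq ι]

theorem rwy_H_mulVec (R : StarRep Ty.D n ι) (χ : Vec n) (x : ι → ℂ) (hx : x ∈ R.wt χ) (y : Vec n) :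
    (R.ρ (Hc y)).mulVec x = ((dot χ y : ℝ) : ℂ) • x :=
  (mem_wt R χ x).1 hx y

theorem rwy_HH_mulVec (R : StarRep Ty.D n ι) (χ : Vec n) (x : ι → ℂ) (hx : x ∈ R.wt χ) :
    (∑ i : Fin n, R.ρ (Hc (Pi.single i 1)) * R.ρ (Hc (Pi.single i 1))).mulVec x =
      ((dot χ χ : ℝ) : ℂ) • x := by
  rw [Matrix.sum_mulVec]
  have h1 : ∀ i : Fin n, (R.ρ (Hc (Pi.single i 1)) * R.ρ (Hc (Pi.single i 1))).mulVec x =
      ((χ i * χ i : ℝ) : ℂ) • x := by
    intro i
    rw [← Matrix.mulVec_mulVec, rwy_H_mulVec R χ x hx, Matrix.mulVec_smul,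
      rwy_H_mulVec R χ x hx, smul_smul, sc_dot_single]
    push_cast
    rfl
  simp only [h1]
  rw [← Finset.sum_smul]
  congr 1
  simp only [dot]
  push_cast
  rfl

open scoped Classical in
/-- the Casimir operator on a weight vector -/
theorem rwy_cas_wt (R : StarRep Ty.D n ι) (χ : Vec n) (x : ι → ℂ) (hx : x ∈ R.wt χ) :
    R.casimir.mulVec x = ((dot χ χ + 2 * dot χ (rhoV n) : ℝ) : ℂ) • x +
      rwySum (fun β : RootD n => if β.Pos then
        R.op (rootVec β)ᴴ (R.op (rootVec β) x) else 0) := by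
  rw [rwy_cas_normal, Matrix.add_mulVec, rwy_HH_mulVec R χ x hx, Matrix.smul_mulVec]
  have h2 := rwy_sum_map (Matrix.mulVec.addMonoidHomLeft x)
    (fun β : RootD n => if β.Pos then
        R.ρ (Hc β.vec) + (2 : ℂ) • ((R.ρ (rootVec β))ᴴ * R.ρ (rootVec β)) else 0)
  have h2' : (rwySum (fun β : RootD n => if β.Pos then
        R.ρ (Hc β.vec) + (2 : ℂ) • ((R.ρ (rootVec β))ᴴ * R.ρ (rootVec β)) else 0)).mulVec x =
      rwySum (fun β : RootD n => (if β.Pos then
        R.ρ (Hc β.vec) + (2 : ℂ) • ((R.ρ (rootVec β))ᴴ * R.ρ (rootVec β)) else 0).mulVec x) := h2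
  rw [h2']
  have h3 : ∀ β : RootD n, (if β.Pos then
        R.ρ (Hc β.vec) + (2 : ℂ) • ((R.ρ (rootVec β))ᴴ * R.ρ (rootVec β)) else 0).mulVec x =
      (((if β.Pos then dot χ β.vec else 0 : ℝ) : ℂ) • x) +
        (2 : ℂ) • (if β.Pos then R.op (rootVec β)ᴴ (R.op (rootVec β) x) else 0) := by
    intro β
    by_cases hβ : β.Pos
    · simp only [if_pos hβ]
      rw [Matrix.add_mulVec, rwy_H_mulVec R χ x hx, Matrix.smul_mulVec, ← Matrix.mulVec_mulVec,
        ← R.star _ (isRootVec_rootVec β).1]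
      rfl
    · simp only [if_neg hβ, Matrix.zero_mulVec, Complex.ofReal_zero, zero_smul, smul_zero,
        add_zero]
  rw [rwy_sum_congr _ _ h3, rwy_sum_add, rwy_sum_smul]
  have h4 := rwy_sum_map
    ((AddMonoidHom.flip (smulAddHom ℂ (ι → ℂ)) x).comp Complex.ofRealHom.toAddMonoidHom)
    (fun β : RootD n => if β.Pos then dot χ β.vec else 0)
  have h4' : ((rwySum (fun β : RootD n => if β.Pos then dot χ β.vec else 0) : ℝ) : ℂ) • x =
      rwySum (fun β : RootD n => ((if β.Pos then dot χ β.vec else 0 : ℝ) : ℂ) • x) := h4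
  rw [← h4', ← rwy_posSum_eq, rwy_posSum_dot, smul_add, smul_smul, smul_smul, ← add_assoc,
    ← add_smul]
  congr 1
  · congr 1
    push_cast
    ring
  · norm_num

end Claimed.Agent.R282
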