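import Claimed.Agent.R282.Rep.R.Words
import Claimed.Agent.R282.Sched.Weyl

/-!
# Row 282, Rep, package BP-REP-W, file 0 : the `sl_2` of a root acting on the weight spaces of an invariant subspace (architect helper139; no sorry of its own)
`e = op (rootVec β)`, `f = op (rootVec β)ᴴ`, `h = op (Hc β.vec)`.
-/

set_option autoImplicit false

namespace Claimed.Agent.R282

open Claims.C0456 Matrix

variable {n : ℕ}
variable {ι : Type} [Fintype ι] [DecidableEq ι]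

theorem rwy_inG_rootVec (β : RootD n) : Ty.D.InG (rootVec β) := (isRootVec_rootVec β).1

theorem rwy_inG_rootVecH (β : RootD n) : Ty.D.InG (rootVec β)ᴴ :=
  inG_conjTranspose _ (rwy_inG_rootVec β)

theorem rwy_e_mem (R : StarRep Ty.D n ι) (S : Submodule ℂ (ι → ℂ)) (hS : R.Inv S) (β : RootD n)
    (χ : Vec n) (a : ι → ℂ) (ha : a ∈ S ⊓ R.wt χ) :
    R.op (rootVec β) a ∈ S ⊓ R.wt (χ + β.vec) :=
  ⟨hS _ (rwy_inG_rootVec β) a ha.1, wt_shift R χ β a ha.2⟩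

theorem rwy_f_mem (R : StarRep Ty.D n ι) (S : Submodule ℂ (ι → ℂ)) (hS : R.Inv S) (β : RootD n)
    (χ : Vec n) (a : ι → ℂ) (ha : a ∈ S ⊓ R.wt χ) :
    R.op (rootVec β)ᴴ a ∈ S ⊓ R.wt (χ - β.vec) := by
  refine ⟨hS _ (rwy_inG_rootVecH β) a ha.1, ?_⟩
  have h1 := wt_shift R χ β.neg a ha.2
  rw [rootD_neg_vec, ← sub_eq_add_neg] at h1
  have h2 : R.op (rootVec β)ᴴ a = - R.op (rootVec β.neg) a := by
    rw [rootVec_conjTranspose, op_apply, op_apply, map_neg, Matrix.neg_mulVec]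
  rw [h2]
  exact Submodule.neg_mem _ h1

theorem rwy_h_eq (R : StarRep Ty.D n ι) (S : Submodule ℂ (ι → ℂ)) (χ x : Vec n) (a : ι → ℂ)
    (ha : a ∈ S ⊓ R.wt χ) : R.op (Hc x) a = ((dot χ x : ℝ) : ℂ) • a :=
  (mem_wt R χ a).1 ha.2 x

theorem rwy_ef (R : StarRep Ty.D n ι) (β : RootD n) (a : ι → ℂ) :
    R.op (rootVec β) (R.op (rootVec β)ᴴ a) - R.op (rootVec β)ᴴ (R.op (rootVec β) a) =
      R.op (Hc β.vec) a := by
  rw [← op_bracket R _ _ (rwy_inG_rootVec β) (rwy_inG_rootVecH β), rootVec_bracket]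

theorem rwy_adj (R : StarRep Ty.D n ι) (β : RootD n) (a b : ι → ℂ) :
    star (R.op (rootVec β) a) ⬝ᵥ b = star a ⬝ᵥ R.op (rootVec β)ᴴ b :=
  op_adjoint R _ (rwy_inG_rootVec β) a b

end Claimed.Agent.R282
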