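import Mathlib

/-!
# Row 282, Rep, package BP-REP-W, file 2 : traces on subspaces (architect helper139), Mathlib only

`rwyTr V A` = trace of the compression of `A : E → E` to the subspace `V` along a fixed linear projection.  It is LINEAR in `A` (no invariance proofs needed), depends only on `A|V`, and is the usual trace of `A|V` when `A V ≤ V`.
LEAF L-RWY-TR1 = `rwy_tr_scalar`, `rwy_tr_comm`;   LEAF L-RWY-TR2 = `rwy_tr_string`.
* `rwy_tr_scalar`: the compression is `c • id` (`rwy_proj_mem`), `LinearMap.trace_id`, `map_smul`.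
* `rwy_tr_comm`: with `e' : V → W`, `f' : W → V` the restrictions (`LinearMap.restrict`), the compression of `f ∘ e` to `V` is `f' ∘ e'` and that of `e ∘ f` to `W` is `e' ∘ f'`; `LinearMap.trace_comp_comm'`.
* `rwy_tr_string`: `T k := rwyTr (V k) (f ∘ e)`.  `T k = rwyTr (V (k+1)) (e ∘ f)` (`rwy_tr_comm`) `= rwyTr (V (k+1)) (f ∘ e + h)` (`rwy_tr_congr`, `hef`) `= T (k+1) + c (k+1) * finrank (V (k+1))`; `T k = 0` for `K ≤ k`
  (`rwy_tr_scalar` with `c = 0` on `⊥`, or `finrank ⊥ = 0`).  Induction: `T 0 = ∑_(k ∈ Ico 1 (j+1)) … + T j`; terms with `K ≤ k` vanish.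
-/

set_option autoImplicit false

namespace Claimed.Agent.R282

variable {E : Type} [AddCommGroup E] [Module ℂ E]

/-- a fixed linear projection onto `V` -/
noncomputable def rwyProj (V : Submodule ℂ E) : E →ₗ[ℂ] V :=
  Classical.choose (LinearMap.exists_leftInverse_of_injective V.subtype V.ker_subtype)

theorem rwy_proj_comp (V : Submodule ℂ E) : rwyProj V ∘ₗ V.subtype = LinearMap.id :=
  Classical.choose_spec (LinearMap.exists_leftInverse_of_injective V.subtype V.ker_subtype)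

theorem rwy_proj_mem (V : Submodule ℂ E) (a : E) (ha : a ∈ V) : rwyProj V a = ⟨a, ha⟩ := by
  have h := LinearMap.congr_fun (rwy_proj_comp V) ⟨a, ha⟩
  simpa using h

/-- the trace of the compression of `A` to `V` -/
noncomputable def rwyTr (V : Submodule ℂ E) : (E →ₗ[ℂ] E) →ₗ[ℂ] ℂ where
  toFun A := LinearMap.trace ℂ V (rwyProj V ∘ₗ A ∘ₗ V.subtype)
  map_add' A B := by
    rw [LinearMap.add_comp, LinearMap.comp_add, map_add]
  map_smul' c A := by
    rw [LinearMap.smul_comp, LinearMap.comp_smul, map_smul, RingHom.id_apply]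

theorem rwy_tr_def (V : Submodule ℂ E) (A : E →ₗ[ℂ] E) :
    rwyTr V A = LinearMap.trace ℂ V (rwyProj V ∘ₗ A ∘ₗ V.subtype) := rfl

theorem rwy_tr_congr (V : Submodule ℂ E) (A B : E →ₗ[ℂ] E) (h : ∀ a ∈ V, A a = B a) :
    rwyTr V A = rwyTr V B := by
  rw [rwy_tr_def, rwy_tr_def]
  congr 2
  ext a
  simp [h a.1 a.2]

/-- LEAF L-RWY-TR1 -/
theorem rwy_tr_scalar [FiniteDimensional ℂ E] (V : Submodule ℂ E) (A : E →ₗ[ℂ] E) (c : ℂ) (h : ∀ a ∈ V, A a = c • a) :
    rwyTr V A = c * (Module.finrank ℂ V : ℂ) := by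
  rw [rwy_tr_def]
  have h1 : rwyProj V ∘ₗ A ∘ₗ V.subtype = c • LinearMap.id := by
    ext a
    simp only [LinearMap.comp_apply, Submodule.subtype_apply, LinearMap.smul_apply, LinearMap.id_apply]
    rw [h a.1 a.2, rwy_proj_mem V (c • a.1) (V.smul_mem c a.2)]
    rfl
  rw [h1, map_smul, LinearMap.trace_id, smul_eq_mul]

/-- LEAF L-RWY-TR1 -/
theorem rwy_tr_comm [FiniteDimensional ℂ E] (V W : Submodule ℂ E) (e f : E →ₗ[ℂ] E)
    (he : ∀ a ∈ V, e a ∈ W) (hf : ∀ b ∈ W, f b ∈ V) :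
    rwyTr V (f ∘ₗ e) = rwyTr W (e ∘ₗ f) := by
  rw [rwy_tr_def, rwy_tr_def]
  have h1 : rwyProj V ∘ₗ (f ∘ₗ e) ∘ₗ V.subtype = (f.restrict hf) ∘ₗ (e.restrict he) := by
    ext a
    simp only [LinearMap.comp_apply, Submodule.subtype_apply]
    rw [rwy_proj_mem V (f (e a.1)) (hf _ (he _ a.2))]
    rfl
  have h2 : rwyProj W ∘ₗ (e ∘ₗ f) ∘ₗ W.subtype = (e.restrict he) ∘ₗ (f.restrict hf) := by
    ext a
    simp only [LinearMap.comp_apply, Submodule.subtype_apply]
    rw [rwy_proj_mem W (e (f a.1)) (he _ (hf _ a.2))]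
    rfl
  rw [h1, h2, LinearMap.trace_comp_comm']

/-- LEAF L-RWY-TR2 : the trace recursion along a string -/
theorem rwy_tr_string [FiniteDimensional ℂ E] (e f h : E →ₗ[ℂ] E) (V : ℕ → Submodule ℂ E) (c : ℕ → ℂ)
    (he : ∀ k, ∀ a ∈ V k, e a ∈ V (k + 1)) (hf : ∀ k, ∀ a ∈ V (k + 1), f a ∈ V k)
    (hef : ∀ a, e (f a) - f (e a) = h a) (hh : ∀ k, ∀ a ∈ V k, h a = c k • a)
    (K : ℕ) (hK : ∀ k, K ≤ k → V k = ⊥) :
    rwyTr (V 0) (f ∘ₗ e) = ∑ k ∈ Finset.Ico 1 K, c k * (Module.finrank ℂ (V k) : ℂ) := by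
  have hstep : ∀ k, rwyTr (V k) (f ∘ₗ e)
      = rwyTr (V (k + 1)) (f ∘ₗ e) + c (k + 1) * (Module.finrank ℂ (V (k + 1)) : ℂ) := by
    intro k
    rw [rwy_tr_comm (V k) (V (k + 1)) e f (he k) (hf k),
      rwy_tr_congr (V (k + 1)) (e ∘ₗ f) (f ∘ₗ e + h) (fun a _ => by
        simp only [LinearMap.comp_apply, LinearMap.add_apply]
        rw [← hef a]
        abel), map_add, rwy_tr_scalar (V (k + 1)) h (c (k + 1)) (hh (k + 1))]
  have hfr : ∀ k, K ≤ k → (Module.finrank ℂ (V k) : ℂ) = 0 := by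
    intro k hk
    rw [hK k hk, finrank_bot]
    simp
  have hzero : ∀ k, K ≤ k → rwyTr (V k) (f ∘ₗ e) = 0 := by
    intro k hk
    rw [rwy_tr_scalar (V k) (f ∘ₗ e) 0 (fun a ha => by
      rw [hK k hk, Submodule.mem_bot] at ha
      rw [ha, map_zero, smul_zero]), zero_mul]
  have hind : ∀ j, rwyTr (V 0) (f ∘ₗ e)
      = ∑ k ∈ Finset.Ico 1 (j + 1), c k * (Module.finrank ℂ (V k) : ℂ) + rwyTr (V j) (f ∘ₗ e) := by
    intro j
    induction j with
    | zero => simp
    | succ j ih =>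
      rw [ih, hstep j, Finset.sum_Ico_succ_top (by omega : 1 ≤ j + 1)]
      ring
  rcases Nat.eq_zero_or_pos K with rfl | hpos
  · rw [hzero 0 le_rfl]
    simp
  · rw [hind K, hzero K le_rfl, Finset.sum_Ico_succ_top hpos, hfr K le_rfl]
    simp

/-- generates the equation lemmas of the definitions of this file here (rule 6) -/
theorem rwy_eqns_tr : True := by
  have := @rwyProj.eq_1
  have := @rwyTr.eq_1
  trivial

end Claimed.Agent.R282
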