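import Claimed.Agent.R282.Rep.R.Weyl.Cas
import Claimed.Agent.R282.Rep.R.Weyl.Tr
import Claimed.Agent.R282.Rep.R.Weyl.Basic

/-!
# Row 282, Rep, package BP-REP-W, file 6 : Freudenthal's formula (architect helper139)

* `rwy_tr_root` (PROVED from `rwy_tr_string`): `Tr (f_β e_β | S ⊓ wt χ) = ∑_(k ≥ 1) ⟨χ + kβ, β⟩ mult (χ + kβ)`.
* LEAF L-RWY-FRE-CAS = `rwy_tr_cas`: apply the linear functional `rwyTr V ∘ toLin'`, `V = S ⊓ wt χ`, to `rwy_cas_normal`.  `toLin' (A * B) = toLin' A ∘ₗ toLin' B` (`Matrix.toLin'_mul`), `toLin' (R.ρ X) = R.op X` (`rfl`), `(R.ρ e)ᴴ = R.ρ eᴴ` (`R.star`, `rwy_inG_rootVec`).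
  `rwyTr V (op H_i ∘ op H_i) = χ_i² * mult` (`rwy_tr_scalar`, `rwy_h_eq` twice, `sc_dot_single`), `∑ χ_i² = dot χ χ`; `rwyTr V (op (Hc β.vec)) = ⟨χ,β⟩ * mult`; through `rwySum` with `rwy_sum_map` (additive map `A ↦ rwyTr V (toLin' A)`), `apply_ite`;
  result `(1/2) rwySum (if Pos then ⟨χ,β⟩ mult + 2 T β else 0)`, cast from `ℝ` (`rwy_sum_map` for `Complex.ofRealHom`), `= (1/2) (posSum ⟨χ,·⟩ * mult + 2 posSum T)`; `rwy_posSum_dot`.
-/

set_option autoImplicit false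

namespace Claimed.Agent.R282

open Claims.C0456 Matrix

variable {n : ℕ}
variable {ι : Type} [Fintype ι] [DecidableEq ι]

theorem rwy_mult_def (R : StarRep Ty.D n ι) (S : Submodule ℂ (ι → ℂ)) (χ : Vec n) :
    R.mult S χ = Module.finrank ℂ (S ⊓ R.wt χ : Submodule ℂ (ι → ℂ)) := rfl

/-- the trace of `f_β e_β` on a weight space -/
theorem rwy_tr_root (R : StarRep Ty.D n ι) (S : Submodule ℂ (ι → ℂ)) (hS : R.Inv S) (β : RootD n)
    (χ : Vec n) (K : ℕ) (hK : ∀ k, K ≤ k → R.mult S (χ + (k : ℝ) • β.vec) = 0) :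
    rwyTr (S ⊓ R.wt χ) (R.op (rootVec β)ᴴ ∘ₗ R.op (rootVec β)) =
      ((∑ k ∈ Finset.Ico 1 K, dot (χ + (k : ℝ) • β.vec) β.vec *
        (R.mult S (χ + (k : ℝ) • β.vec) : ℝ) : ℝ) : ℂ) := by
  have H := rwy_tr_string (R.op (rootVec β)) (R.op (rootVec β)ᴴ) (R.op (Hc β.vec))
    (fun k : ℕ => S ⊓ R.wt (χ + (k : ℝ) • β.vec))
    (fun k : ℕ => ((dot (χ + (k : ℝ) • β.vec) β.vec : ℝ) : ℂ))
    (by
      intro k a ha
      have h1 := rwy_e_mem R S hS β _ a ha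
      rw [show χ + ((k + 1 : ℕ) : ℝ) • β.vec = χ + (k : ℝ) • β.vec + β.vec by
        push_cast; module]
      exact h1)
    (by
      intro k a ha
      have h1 := rwy_f_mem R S hS β _ a ha
      rw [show χ + ((k + 1 : ℕ) : ℝ) • β.vec - β.vec = χ + (k : ℝ) • β.vec by
        push_cast; module] at h1
      exact h1)
    (rwy_ef R β)
    (fun k a ha => rwy_h_eq R S _ β.vec a ha)
    K
    (by
      intro k hk
      have h1 := hK k hk
      rw [rwy_mult_def] at h1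
      exact Submodule.finrank_eq_zero.1 h1)
  simp only [Nat.cast_zero, zero_smul, add_zero] at H
  rw [H]
  push_cast
  rfl

/-- LEAF L-RWY-FRE-CAS : the trace of the Casimir operator on a weight space -/
theorem rwy_tr_cas (R : StarRep Ty.D n ι) (S : Submodule ℂ (ι → ℂ)) (χ : Vec n)
    (T : RootD n → ℝ)
    (hT : ∀ β : RootD n, β.Pos →
      rwyTr (S ⊓ R.wt χ) (R.op (rootVec β)ᴴ ∘ₗ R.op (rootVec β)) = ((T β : ℝ) : ℂ)) :
    rwyTr (S ⊓ R.wt χ) (Matrix.toLin' R.casimir) =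
      (((dot χ χ + 2 * dot χ (rhoV n)) * (R.mult S χ : ℝ) + posSum T : ℝ) : ℂ) := by
  classical
  set V : Submodule ℂ (ι → ℂ) := S ⊓ R.wt χ with hV
  have hm : (Module.finrank ℂ V : ℂ) = ((R.mult S χ : ℝ) : ℂ) := by
    rw [rwy_mult_def]
    push_cast
    rfl
  let Φ : Matrix ι ι ℂ →ₗ[ℂ] ℂ := rwyTr V ∘ₗ (Matrix.toLin' : Matrix ι ι ℂ ≃ₗ[ℂ] _).toLinearMap
  have hΦ : ∀ A, Φ A = rwyTr V (Matrix.toLin' A) := fun A => rfl
  have h1 : ∀ i : Fin n, Φ (R.ρ (Hc (Pi.single i 1)) * R.ρ (Hc (Pi.single i 1)))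
      = ((χ i * χ i * (R.mult S χ : ℝ) : ℝ) : ℂ) := by
    intro i
    have e : ∀ b ∈ V, Matrix.toLin' (R.ρ (Hc (Pi.single i 1))) b = ((χ i : ℝ) : ℂ) • b := by
      intro b hb
      have := rwy_h_eq R S χ (Pi.single i 1) b hb
      rw [sc_dot_single] at this
      exact this
    rw [hΦ, rwy_tr_scalar V _ ((χ i * χ i : ℝ) : ℂ), hm]
    · push_cast
      ring
    · intro a ha
      rw [Matrix.toLin'_mul, LinearMap.comp_apply, e a ha, map_smul, e a ha, smul_smul]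
      push_cast
      rfl
  have h2 : ∀ β : RootD n, Φ (R.ρ (Hc β.vec)) = ((dot χ β.vec * (R.mult S χ : ℝ) : ℝ) : ℂ) := by
    intro β
    rw [hΦ, rwy_tr_scalar V (Matrix.toLin' (R.ρ (Hc β.vec))) ((dot χ β.vec : ℝ) : ℂ)
      (fun a ha => rwy_h_eq R S χ β.vec a ha), hm]
    push_cast
    ring
  have h3 : ∀ β : RootD n, β.Pos → Φ ((R.ρ (rootVec β))ᴴ * R.ρ (rootVec β)) = ((T β : ℝ) : ℂ) := by
    intro β hβ
    rw [hΦ, Matrix.toLin'_mul, ← R.star _ (rwy_inG_rootVec β)]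
    exact hT β hβ
  have h4 : ∀ β : RootD n,
      Φ (if β.Pos then R.ρ (Hc β.vec) + (2 : ℂ) • ((R.ρ (rootVec β))ᴴ * R.ρ (rootVec β)) else 0)
      = (((if β.Pos then dot χ β.vec * (R.mult S χ : ℝ) + T β * 2 else 0 : ℝ)) : ℂ) := by
    intro β
    by_cases hβ : β.Pos
    · rw [if_pos hβ, if_pos hβ, map_add, map_smul, h2, h3 β hβ, smul_eq_mul]
      push_cast
      ring
    · rw [if_neg hβ, if_neg hβ, map_zero, Complex.ofReal_zero]
  have h5 : Φ (rwySum (fun β : RootD n => if β.Pos then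
        R.ρ (Hc β.vec) + (2 : ℂ) • ((R.ρ (rootVec β))ᴴ * R.ρ (rootVec β)) else 0))
      = ((posSum (fun β => dot χ β.vec * (R.mult S χ : ℝ) + T β * 2) : ℝ) : ℂ) := by
    have a1 := rwy_sum_map Φ.toAddMonoidHom (fun β : RootD n => if β.Pos then
        R.ρ (Hc β.vec) + (2 : ℂ) • ((R.ρ (rootVec β))ᴴ * R.ρ (rootVec β)) else 0)
    have a2 := rwy_sum_map Complex.ofRealHom.toAddMonoidHom
      (fun β : RootD n => if β.Pos then dot χ β.vec * (R.mult S χ : ℝ) + T β * 2 else 0)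
    rw [rwy_posSum_eq]
    refine a1.trans (Eq.trans ?_ a2.symm)
    exact rwy_sum_congr _ _ h4
  rw [← hΦ, rwy_cas_normal, map_add, map_sum, map_smul, h5, rwy_posSum_add, rwy_posSum_mul, rwy_posSum_mul,
    rwy_posSum_dot, Finset.sum_congr rfl fun i _ => h1 i, smul_eq_mul]
  have h6 : dot χ χ = ∑ i, χ i * χ i := rfl
  rw [h6, ← Complex.ofReal_sum, ← Finset.sum_mul]
  push_cast
  ring

/-- (W2) -/
theorem rwy_freudenthal (R : StarRep Ty.D n ι) (v : ι → ℂ) (lam : Vec n) (h : IsHW R v lam)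
    (χ : Vec n) (K : ℕ) (hK : ∀ k, K ≤ k → ∀ β : RootD n, R.mult (R.cyc v) (χ + (k : ℝ) • β.vec) = 0) :
    (dot (lam + rhoV n) (lam + rhoV n) - dot (χ + rhoV n) (χ + rhoV n)) * (R.mult (R.cyc v) χ : ℝ) =
      posSum fun β => ∑ k ∈ Finset.Ico 1 K,
        dot (χ + (k : ℝ) • β.vec) β.vec * (R.mult (R.cyc v) (χ + (k : ℝ) • β.vec) : ℝ) := by
  have h1 := rwy_tr_cas R (R.cyc v) χ
    (fun β => ∑ k ∈ Finset.Ico 1 K,
        dot (χ + (k : ℝ) • β.vec) β.vec * (R.mult (R.cyc v) (χ + (k : ℝ) • β.vec) : ℝ))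
    (fun β _ => rwy_tr_root R (R.cyc v) (cyc_inv R v) β χ K fun k hk => hK k hk β)
  have h2 := rwy_tr_scalar (R.cyc v ⊓ R.wt χ) (Matrix.toLin' R.casimir)
    ((dot lam lam + 2 * dot lam (rhoV n) : ℝ) : ℂ)
    (fun a ha => by rw [Matrix.toLin'_apply]; exact rwy_casimir R v lam h a ha.1)
  rw [h1, ← rwy_mult_def] at h2
  have h3 : (dot χ χ + 2 * dot χ (rhoV n)) * (R.mult (R.cyc v) χ : ℝ) +
      (posSum fun β => ∑ k ∈ Finset.Ico 1 K,
        dot (χ + (k : ℝ) • β.vec) β.vec * (R.mult (R.cyc v) (χ + (k : ℝ) • β.vec) : ℝ)) =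
      (dot lam lam + 2 * dot lam (rhoV n)) * (R.mult (R.cyc v) χ : ℝ) := by
    exact_mod_cast h2
  rw [sc_dot_add_left, sc_dot_add_right, sc_dot_add_right, sc_dot_add_left, sc_dot_add_right,
    sc_dot_add_right, sc_dot_comm (rhoV n) lam, sc_dot_comm (rhoV n) χ]
  linarith

end Claimed.Agent.R282
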