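import Claimed.Agent.R282.Rep.R.Weyl.Sl2
import Claimed.Agent.R282.Rep.R.Weyl.Basic
import Claimed.Agent.R282.Rep.C.WDkit.Grp

/-!
# Row 282, Rep, package BP-REP-W, file 4 : invariance of the multiplicities under the reflections, generation of `W(D_n)` (architect helper139)

`rwyStr S β χ₀ t = S ⊓ wt (χ₀ + t β)`.  For `⟨χ₀, β⟩ = 0` this is an `RwySl2` datum for `e = op (rootVec β)`, `f = op (rootVec β)ᴴ`, `h = op (Hc β.vec)`.
* LEAF L-RWY-FIN = `rwy_str_fin`: `wt_finite`; `t ↦ χ₀ + t β` is injective (`sc_vec_ne_zero`), so `{t | wt (χ₀ + t β) ≠ ⊥}` is finite (`Set.Finite.preimage`), hence bounded (`Set.Finite.bddAbove` of the image under `|·|`, `exists_nat_gt`).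
* LEAF L-RWY-GEN = `rwy_act_induction`.  `w.act x = flip_s (perm_σ x)`.  (1) permutations: `Equiv.Perm.swap_induction_on`; `(⟨swap i j * σ, false⟩ : WD n).act x = refl ⟨i,j,_,false,true⟩ (⟨σ, false⟩.act x)`.
  (2) even sign patterns: induction on the number of `true`: if `s i = s j = true`, `i ≠ j`, then changing both to `false` composes with `refl ⟨i,j,_,false,true⟩ ∘ refl ⟨i,j,_,false,false⟩` (negates the coordinates `i`, `j`).
  Same proof as `spa_induction` of `C/WDkit/Grp.lean` (PROVED there for integer vectors: copy it).  Useful: `sc_dot_vec`, `sc_WD_mul`, `sc_WD_refl`.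
-/

set_option autoImplicit false

namespace Claimed.Agent.R282

open Claims.C0456 Matrix

variable {n : ℕ}
variable {ι : Type} [Fintype ι] [DecidableEq ι]

/-- the `β`-string through `χ₀` in an invariant subspace -/
noncomputable def rwyStr (R : StarRep Ty.D n ι) (S : Submodule ℂ (ι → ℂ)) (β : RootD n) (χ₀ : Vec n)
    (t : ℝ) : Submodule ℂ (ι → ℂ) := S ⊓ R.wt (χ₀ + t • β.vec)

theorem rwy_str_def (R : StarRep Ty.D n ι) (S : Submodule ℂ (ι → ℂ)) (β : RootD n) (χ₀ : Vec n)
    (t : ℝ) : rwyStr R S β χ₀ t = S ⊓ R.wt (χ₀ + t • β.vec) := rfl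

/-- LEAF L-RWY-FIN : strings are finite -/
theorem rwy_str_fin (R : StarRep Ty.D n ι) (β : RootD n) (χ₀ : Vec n) :
    ∃ N : ℕ, ∀ t : ℝ, (N : ℝ) ≤ |t| → R.wt (χ₀ + t • β.vec) = ⊥ := by
  have hinj : Function.Injective fun t : ℝ => χ₀ + t • β.vec := by
    intro t t' h
    have h1 : t • β.vec = t' • β.vec := add_left_cancel h
    exact smul_left_injective ℝ (sc_vec_ne_zero β) h1
  have hfin : {t : ℝ | R.wt (χ₀ + t • β.vec) ≠ ⊥}.Finite :=
    (wt_finite R).preimage hinj.injOn
  obtain ⟨B, hB⟩ := (hfin.image fun t : ℝ => |t|).bddAbove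
  obtain ⟨N, hN⟩ := exists_nat_gt B
  refine ⟨N, fun t ht => ?_⟩
  by_contra hne
  have h1 : |t| ≤ B := hB ⟨t, hne, rfl⟩
  linarith

theorem rwy_sl2_inst (R : StarRep Ty.D n ι) (S : Submodule ℂ (ι → ℂ)) (hS : R.Inv S) (β : RootD n)
    (χ₀ : Vec n) (h0 : dot χ₀ β.vec = 0) :
    RwySl2 (R.op (rootVec β)) (R.op (rootVec β)ᴴ) (R.op (Hc β.vec)) (rwyStr R S β χ₀) where
  adj := rwy_adj R β
  ef := rwy_ef R β
  hV := by
    intro t a ha
    rw [rwy_h_eq R S _ β.vec a ha, sc_dot_add_left, sc_dot_smul_left, sc_vec_dot_self, h0]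
    congr 2
    ring
  eV := by
    intro t a ha
    have h1 := rwy_e_mem R S hS β _ a ha
    rw [rwy_str_def, show χ₀ + (t + 1) • β.vec = χ₀ + t • β.vec + β.vec by module]
    exact h1
  fV := by
    intro t a ha
    have h1 := rwy_f_mem R S hS β _ a ha
    rw [rwy_str_def, show χ₀ + (t - 1) • β.vec = χ₀ + t • β.vec - β.vec by module]
    exact h1
  fin := by
    obtain ⟨N, hN⟩ := rwy_str_fin R β χ₀
    exact ⟨N, fun t ht => by rw [rwy_str_def, hN t ht, inf_bot_eq]⟩

/-- invariance under a reflection -/
theorem rwy_mult_refl (R : StarRep Ty.D n ι) (S : Submodule ℂ (ι → ℂ)) (hS : R.Inv S) (β : RootD n)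
    (χ : Vec n) : R.mult S (refl β χ) = R.mult S χ := by
  set c : ℝ := dot χ β.vec with hc
  set χ₀ : Vec n := χ - (c / 2) • β.vec with hχ₀
  have h0 : dot χ₀ β.vec = 0 := by
    rw [hχ₀, sc_dot_sub_left, sc_dot_smul_left, sc_vec_dot_self, ← hc]
    ring
  have H := rwy_sl2_symm (rwy_sl2_inst R S hS β χ₀ h0) (c / 2)
  have e1 : χ₀ + (c / 2) • β.vec = χ := by rw [hχ₀]; abel
  have e2 : χ₀ + (-(c / 2)) • β.vec = refl β χ := by
    rw [hχ₀]
    show _ = χ - dot χ β.vec • β.vec
    rw [← hc]
    module
  rw [rwy_str_def, rwy_str_def, e1, e2] at H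
  exact H.symm

/-- signed permutations acting on real vectors -/
def rwyA (σ : Equiv.Perm (Fin n)) (s : Fin n → Bool) (x : Vec n) : Vec n :=
  fun i => sgnB (s i) * x (σ.symm i)

theorem rwyA_one (x : Vec n) : rwyA 1 (fun _ => false) x = x := by
  ext i
  show sgnB false * x i = x i
  simp [sgnB]

theorem rwyA_comp (σ τ : Equiv.Perm (Fin n)) (s t : Fin n → Bool) (x : Vec n) :
    rwyA σ s (rwyA τ t x) = rwyA (σ * τ) (fun i => xor (s i) (t (σ.symm i))) x := by
  ext i
  simp only [rwyA, Equiv.Perm.mul_def, Equiv.symm_trans_apply, sc_sgnB_xor]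
  ring

theorem rwyA_minus (i j : Fin n) (hij : i ≠ j) (x : Vec n) :
    rwyA (Equiv.swap i j) (fun _ => false) x = refl ⟨i, j, hij, false, true⟩ x := by
  ext k
  simp only [rwyA, refl, sc_dot_vec, Equiv.symm_swap, Pi.sub_apply, Pi.smul_apply, smul_eq_mul,
    RootD.vec, sgnB]
  by_cases hki : k = i
  · subst hki
    simp [hij]
  · by_cases hkj : k = j
    · subst hkj
      simp [hki]
    · simp [hki, hkj, Equiv.swap_apply_of_ne_of_ne hki hkj]

theorem rwyA_plus (i j : Fin n) (hij : i ≠ j) (x : Vec n) :
    rwyA (Equiv.swap i j) (fun k => decide (k = i ∨ k = j)) x = refl ⟨i, j, hij, false, false⟩ x := by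
  ext k
  simp only [rwyA, refl, sc_dot_vec, Equiv.symm_swap, Pi.sub_apply, Pi.smul_apply, smul_eq_mul,
    RootD.vec, sgnB]
  by_cases hki : k = i
  · subst hki
    simp [hij]
  · by_cases hkj : k = j
    · subst hkj
      simp [hki]
    · simp [hki, hkj, Equiv.swap_apply_of_ne_of_ne hki hkj]

theorem rwyA_induction (P : Vec n → Vec n → Prop) (hrefl : ∀ x, P x x)
    (htrans : ∀ x y z, P x y → P y z → P x z)
    (hm : ∀ i j, i ≠ j → ∀ x, P x (rwyA (Equiv.swap i j) (fun _ => false) x))
    (hp : ∀ i j, i ≠ j → ∀ x, P x (rwyA (Equiv.swap i j) (fun k => decide (k = i ∨ k = j)) x))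
    (σ : Equiv.Perm (Fin n)) (s : Fin n → Bool) (hs : evenS s) (x : Vec n) :
    P x (rwyA σ s x) := by
  -- permutations
  have h1 : ∀ (σ : Equiv.Perm (Fin n)) (x : Vec n), P x (rwyA σ (fun _ => false) x) := by
    intro σ
    induction σ using Equiv.Perm.swap_induction_on with
    | one =>
      intro x
      rw [rwyA_one]
      exact hrefl x
    | swap_mul f a b hab ih =>
      intro x
      have e : rwyA (Equiv.swap a b * f) (fun _ => false) x =
          rwyA (Equiv.swap a b) (fun _ => false) (rwyA f (fun _ => false) x) := by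
        rw [rwyA_comp]
        rfl
      rw [e]
      exact htrans _ _ _ (ih x) (hm a b hab _)
  -- pair sign changes
  have h2 : ∀ i j : Fin n, i ≠ j → ∀ x, P x (rwyA 1 (fun k => decide (k = i ∨ k = j)) x) := by
    intro i j hij x
    have e : rwyA 1 (fun k => decide (k = i ∨ k = j)) x =
        rwyA (Equiv.swap i j) (fun _ => false)
          (rwyA (Equiv.swap i j) (fun k => decide (k = i ∨ k = j)) x) := by
      rw [rwyA_comp, Equiv.swap_mul_self]
      congr 1
      ext k
      simp only [Equiv.symm_swap, Bool.false_xor]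
      by_cases hki : k = i
      · subst hki
        simp
      · by_cases hkj : k = j
        · subst hkj
          simp
        · simp [hki, hkj, Equiv.swap_apply_of_ne_of_ne hki hkj]
    rw [e]
    exact htrans _ _ _ (hp i j hij x) (hm i j hij _)
  -- even sign patterns
  have h3 : ∀ (k : ℕ) (s : Fin n → Bool), (Finset.univ.filter fun i => s i = true).card = k → evenS s →
      ∀ x, P x (rwyA 1 s x) := by
    intro k
    induction k using Nat.strong_induction_on with
    | _ k ih =>
      intro s hk hs x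
      by_cases h0 : k = 0
      · have hs0 : s = fun _ => false := by
          rw [h0, Finset.card_eq_zero, Finset.filter_eq_empty_iff] at hk
          ext i
          simpa using hk (Finset.mem_univ i)
        rw [hs0, rwyA_one]
        exact hrefl x
      · have h2k : 1 < (Finset.univ.filter fun i => s i = true).card := by
          have : Even k := hk ▸ hs
          obtain ⟨m, hm'⟩ := this
          omega
        obtain ⟨i, hi, j, hj, hij⟩ := Finset.one_lt_card.1 h2k
        have hi' : s i = true := (Finset.mem_filter.1 hi).2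
        have hj' : s j = true := (Finset.mem_filter.1 hj).2
        set s' : Fin n → Bool := fun k => xor (s k) (decide (k = i ∨ k = j)) with hs'
        have hs'e : evenS s' := evenS_comp 1 s _ hs (evenS_pair i j hij)
        have hlt : (Finset.univ.filter fun i => s' i = true).card < k := by
          rw [← hk]
          refine Finset.card_lt_card ?_
          rw [Finset.ssubset_iff_of_subset]
          · refine ⟨i, hi, ?_⟩
            simp [hs', hi']
          · intro a ha
            have ha' : s' a = true := (Finset.mem_filter.1 ha).2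
            refine Finset.mem_filter.2 ⟨Finset.mem_univ _, ?_⟩
            by_contra hsa
            have hsa' : s a = false := by simpa using hsa
            simp only [hs', hsa', Bool.false_xor, decide_eq_true_eq] at ha'
            rcases ha' with rfl | rfl
            · rw [hi'] at hsa'
              exact Bool.noConfusion hsa'
            · rw [hj'] at hsa'
              exact Bool.noConfusion hsa'
        have e : rwyA 1 s x =
            rwyA 1 s' (rwyA 1 (fun k => decide (k = i ∨ k = j)) x) := by
          rw [rwyA_comp, one_mul]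
          congr 1
          ext a
          exact (wdk_xor_xor _ _).symm
        rw [e]
        exact htrans _ _ _ (h2 i j hij x) (ih _ hlt s' rfl hs'e _)
  have e : rwyA σ s x = rwyA 1 s (rwyA σ (fun _ => false) x) := by
    rw [rwyA_comp, one_mul]
    congr 1
    ext a
    simp
  rw [e]
  exact htrans _ _ _ (h1 σ x) (h3 _ s rfl hs _)

/-- LEAF L-RWY-GEN : `W(D_n)` is generated by the reflections -/
theorem rwy_act_induction (P : Vec n → Vec n → Prop) (hrefl : ∀ x, P x x)
    (htrans : ∀ x y z, P x y → P y z → P x z) (hr : ∀ (β : RootD n) (x : Vec n), P x (refl β x))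
    (w : WD n) (x : Vec n) : P x (w.act x) :=
  rwyA_induction P hrefl htrans (fun i j hij x => rwyA_minus i j hij x ▸ hr _ x)
    (fun i j hij x => rwyA_plus i j hij x ▸ hr _ x) w.σ w.s w.even x

/-- (W1) -/
theorem rwy_mult_weyl (R : StarRep Ty.D n ι) (S : Submodule ℂ (ι → ℂ)) (hS : R.Inv S) (w : WD n)
    (χ : Vec n) : R.mult S (w.act χ) = R.mult S χ :=
  rwy_act_induction (fun x y => R.mult S y = R.mult S x) (fun _ => rfl)
    (fun _ _ _ h1 h2 => h2.trans h1) (fun β x => rwy_mult_refl R S hS β x) w χ

/-- generates the equation lemmas of the definitions of this file here (rule 6) -/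
theorem rwy_eqns_refl : True := by
  have := @rwyStr.eq_1
  have := @rwyA.eq_1
  trivial

end Claimed.Agent.R282
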