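import Claimed.Agent.R282.Rep.R.Weyl.Sum
import Claimed.Agent.R282.Sched.Weyl

/-!
# Row 282, Rep, package BP-REP-W, file 5 : the Casimir operator (architect helper139)

`rwyF p q = E_pq - E_qp` (standard basis of the skew-symmetric matrices), `rwyOm R = ∑_(p,q) ρ(F_pq)²`.
* LEAF L-RWY-CAS-STD = `rwy_cas_std` : `casimir = -(1/2) ∑_(p,q) ρ(F_pq)²`.  Explicit: `Hc (Pi.single i 1) = I • F_((i,0),(i,1))` (see `Jmat`), so `ρ(H_i)² = - ρ(F_((i,0),(i,1)))²`.
  `uvec i s = e_(i,0) + ε_s e_(i,1)`, `ε_true = I`, `ε_false = -I`; `rootVec ⟨i,j,_,si,sj⟩ = (1/2)(A + ε_sj B + ε_si C + ε_si ε_sj D)` with `A = F_((i,0),(j,0))`, `B = F_((i,0),(j,1))`, `C = F_((i,1),(j,0))`, `D = F_((i,1),(j,1))`;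
  `(ρ (rootVec β))ᴴ = ρ (rootVec β)ᴴ = - ρ (rootVec β.neg)` (`R.star`, `rootVec_conjTranspose`), `β.neg` has `ε̄`.  Summing over the four signs the cross terms cancel: `∑_(si,sj) ρ(e_β) ρ(e_β)ᴴ = -(ρA² + ρB² + ρC² + ρD²)`.
  On the other side split `∑_(p,q)` as `∑_(i,j) ∑_(a,b)` (`Fintype.sum_prod_type`, `Fin.sum_univ_two`); `i = j`: `F_pp = 0`, `F_qp = - F_pq`.
* LEAF L-RWY-CAS-COMM = `rwy_om_comm`.  For `Xᵀ = -X`: `X F_pq - F_pq X = ∑_r X r p • F_rq + ∑_r X r q • F_pr` (entrywise).  So (with `R.bracket`, `rwy_F_inG`)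
  `ρX Ω - Ω ρX = ∑_(p,q) ([ρX, ρF_pq] ρF_pq + ρF_pq [ρX, ρF_pq]) = ∑_(p,q,r) X r p • (ρF_rq ρF_pq + ρF_pq ρF_rq) + ∑_(p,q,r) X r q • (ρF_pr ρF_pq + ρF_pq ρF_pr)`;
  each of the two sums changes sign under `r ↔ p` (resp. `r ↔ q`): bracket symmetric, `X` skew.  So both vanish (`x = -x → x = 0` in a `ℂ`-module, or `Finset.sum_comm` + `add_eq_zero`).
* LEAF L-RWY-CAS-NORMAL = `rwy_cas_normal` : `casimir = ∑ ρ(H_i)² + (1/2) rwySum G`, `G β = ρ(e_β) ρ(e_β)ᴴ` (`rfl`); `rwy_sum_split`; `G β.neg = ρ(e_β)ᴴ ρ(e_β)` (`rootVec β.neg = -(rootVec β)ᴴ`, `R.star`, `conjTranspose_conjTranspose`);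
  `G β = ρ(e_β)ᴴ ρ(e_β) + ρ(Hc β.vec)` (`R.bracket`, `rootVec_bracket`, `R.star`).
* LEAF L-RWY-CAS-HW = `rwy_cas_hw` : from `rwy_cas_normal`; `ρ(H_i) v = lam_i v` (`h.wt`, `sc_dot_single`); for `β.Pos`: `ρ(e_β) v = 0` (`h.top`, `isRootVec_rootVec`), `ρ(Hc β.vec) v = ⟨lam,β⟩ v`; push `mulVec · v` through `rwySum` (`rwy_sum_map` with
  the additive map `A ↦ A *ᵥ v`), `rwy_posSum_eq`, `rwy_posSum_dot`.
-/

set_option autoImplicit false

namespace Claimed.Agent.R282

open Claims.C0456 Matrix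

variable {n : ℕ}
variable {ι : Type} [Fintype ι] [DecidableEq ι]

/-- `E_pq - E_qp` -/
def rwyF (p q : Ix n) : Matrix (Ix n) (Ix n) ℂ := Matrix.single p q 1 - Matrix.single q p 1

theorem rwy_F_def (p q : Ix n) : rwyF p q = Matrix.single p q 1 - Matrix.single q p 1 := rfl

theorem rwy_F_inG (p q : Ix n) : Ty.D.InG (rwyF p q) := by
  refine ⟨?_, fun h => by cases h⟩
  rw [rwy_F_def, transpose_sub, transpose_single, transpose_single, neg_sub]

/-- the Casimir operator in the standard basis (up to the factor `-1/2`) -/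
noncomputable def rwyOm (R : StarRep Ty.D n ι) : Matrix ι ι ℂ :=
  ∑ p : Ix n, ∑ q : Ix n, R.ρ (rwyF p q) * R.ρ (rwyF p q)

theorem rwy_om_def (R : StarRep Ty.D n ι) :
    rwyOm R = ∑ p : Ix n, ∑ q : Ix n, R.ρ (rwyF p q) * R.ρ (rwyF p q) := rfl

theorem rwyC_Hc_single (i : Fin n) : Hc (Pi.single i 1) = Complex.I • rwyF (i, 0) (i, 1) := by
  ext p q
  obtain ⟨k, a⟩ := p
  obtain ⟨l, b⟩ := q
  rw [rrt_Hc_apply, Matrix.smul_apply, rwy_F_def, Matrix.sub_apply, Matrix.single_apply,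
    Matrix.single_apply]
  simp only [Pi.single_apply, Prod.mk.injEq]
  by_cases h1 : k = l
  · subst h1
    by_cases h2 : k = i
    · subst h2
      fin_cases a <;> fin_cases b <;> simp
    · have h2' : ¬ i = k := fun e => h2 e.symm
      simp [h2, h2']
  · by_cases h2 : i = k
    · have h3 : ¬ i = l := fun e => h1 (h2 ▸ e)
      simp [h1, h3]
    · simp [h1, h2]

theorem rwyC_uvec (i : Fin n) (s : Bool) :
    uvec i s = Pi.single (i, 0) 1 + (if s then Complex.I else -Complex.I) • Pi.single (i, 1) 1 := by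
  funext p
  obtain ⟨k, a⟩ := p
  simp only [uvec, Pi.add_apply, Pi.smul_apply, Pi.single_apply, Prod.mk.injEq, smul_eq_mul]
  by_cases h : k = i
  · subst h
    fin_cases a <;> simp
  · simp [h]

theorem rwyC_wedge (p q : Ix n) :
    vecMulVec (Pi.single p (1 : ℂ)) (Pi.single q (1 : ℂ)) - vecMulVec (Pi.single q (1 : ℂ)) (Pi.single p (1 : ℂ))
      = rwyF p q := by
  rw [rwy_F_def, single_eq_single_vecMulVec_single, single_eq_single_vecMulVec_single]

theorem rwyC_rootVec (i j : Fin n) (h : i ≠ j) (si sj : Bool) :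
    rootVec ⟨i, j, h, si, sj⟩ = (1 / 2 : ℂ) • (rwyF (i, 0) (j, 0)
      + (if sj then Complex.I else -Complex.I) • rwyF (i, 0) (j, 1)
      + (if si then Complex.I else -Complex.I) • rwyF (i, 1) (j, 0)
      + ((if si then Complex.I else -Complex.I) * (if sj then Complex.I else -Complex.I)) •
          rwyF (i, 1) (j, 1)) := by
  unfold rootVec
  congr 1
  simp only [rwyC_uvec, ← rwyC_wedge, add_vecMulVec, vecMulVec_add, smul_vecMulVec, vecMulVec_smul]
  module

theorem rwyC_signs (A B C D : Matrix ι ι ℂ) :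
    ∑ si : Bool, ∑ sj : Bool,
      ((1 / 2 : ℂ) • (A + (if sj then Complex.I else -Complex.I) • B
        + (if si then Complex.I else -Complex.I) • C
        + ((if si then Complex.I else -Complex.I) * (if sj then Complex.I else -Complex.I)) • D)) *
      (-((1 / 2 : ℂ) • (A + (if (!sj) then Complex.I else -Complex.I) • B
        + (if (!si) then Complex.I else -Complex.I) • C
        + ((if (!si) then Complex.I else -Complex.I) * (if (!sj) then Complex.I else -Complex.I)) • D)))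
    = -(A * A + B * B + C * C + D * D) := by
  simp only [Fintype.sum_bool, Bool.not_true, Bool.not_false, if_true, if_false, Bool.false_eq_true,
    mul_neg, neg_mul, Complex.I_mul_I, neg_neg, smul_add, add_mul, mul_add, smul_mul_assoc,
    mul_smul_comm, smul_smul, neg_smul, neg_add_rev]
  have hII : (1 / 2 * Complex.I * (1 / 2 * Complex.I) : ℂ) = -(1 / 4) := by
    linear_combination (1 / 4 : ℂ) * Complex.I_mul_I
  simp only [hII]
  module

theorem rwyC_F_self (p : Ix n) : rwyF p p = 0 := by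
  rw [rwy_F_def, sub_self]

theorem rwyC_F_swap (p q : Ix n) : rwyF q p = - rwyF p q := by
  rw [rwy_F_def, rwy_F_def, neg_sub]

theorem rwyC_block (R : StarRep Ty.D n ι) (i j : Fin n) (h : i ≠ j) :
    ∑ si : Bool, ∑ sj : Bool,
      R.ρ (rootVec ⟨i, j, h, si, sj⟩) * (R.ρ (rootVec ⟨i, j, h, si, sj⟩))ᴴ
    = - ∑ a : Fin 2, ∑ b : Fin 2, R.ρ (rwyF (i, a) (j, b)) * R.ρ (rwyF (i, a) (j, b)) := by
  have h1 : ∀ si sj : Bool, (R.ρ (rootVec ⟨i, j, h, si, sj⟩))ᴴ
      = - R.ρ (rootVec ⟨i, j, h, !si, !sj⟩) := by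
    intro si sj
    rw [← R.star _ (isRootVec_rootVec _).1, rootVec_conjTranspose, map_neg]
    rfl
  simp only [h1]
  simp only [rwyC_rootVec, map_smul, map_add]
  rw [rwyC_signs]
  simp only [Fin.sum_univ_two]
  abel

/-- LEAF L-RWY-CAS-STD -/
theorem rwy_cas_std (R : StarRep Ty.D n ι) : R.casimir = (-(1 / 2) : ℂ) • rwyOm R := by
  obtain ⟨Q, hQ⟩ : ∃ Q : Fin n → Fin n → Matrix ι ι ℂ, Q = fun i j =>
    ∑ a : Fin 2, ∑ b : Fin 2, R.ρ (rwyF (i, a) (j, b)) * R.ρ (rwyF (i, a) (j, b)) := ⟨_, rfl⟩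
  have hOm : rwyOm R = ∑ i, ∑ j, Q i j := by
    rw [rwy_om_def, hQ]
    simp only [Fintype.sum_prod_type]
    refine Finset.sum_congr rfl fun i _ => ?_
    exact Finset.sum_comm
  have hH : ∀ i : Fin n, R.ρ (Hc (Pi.single i 1)) * R.ρ (Hc (Pi.single i 1))
      = (-(1 / 2) : ℂ) • Q i i := by
    intro i
    rw [hQ]
    simp only [Fin.sum_univ_two, rwyC_F_self, map_zero, mul_zero, zero_add, add_zero,
      rwyC_F_swap (i, 0) (i, 1), map_neg, neg_mul_neg, rwyC_Hc_single, map_smul, smul_mul_assoc,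
      mul_smul_comm, smul_smul, Complex.I_mul_I]
    module
  have hB : ∀ i j : Fin n, (∑ si : Bool, ∑ sj : Bool,
      if h : i ≠ j then R.ρ (rootVec ⟨i, j, h, si, sj⟩) * (R.ρ (rootVec ⟨i, j, h, si, sj⟩))ᴴ else 0)
      = if i = j then 0 else - Q i j := by
    intro i j
    by_cases h : i = j
    · have h' : ¬ i ≠ j := fun e => e h
      simp only [dif_neg h', if_pos h, Finset.sum_const_zero]
    · have h' : i ≠ j := h
      simp only [dif_pos h', if_neg h]
      rw [rwyC_block, hQ]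
  have h0 : R.casimir = ∑ i : Fin n, R.ρ (Hc (Pi.single i 1)) * R.ρ (Hc (Pi.single i 1)) +
    (1 / 2 : ℂ) • ∑ i : Fin n, ∑ j : Fin n, ∑ si : Bool, ∑ sj : Bool,
      if h : i ≠ j then R.ρ (rootVec ⟨i, j, h, si, sj⟩) * (R.ρ (rootVec ⟨i, j, h, si, sj⟩))ᴴ else 0 :=
    rfl
  rw [h0, hOm]
  simp only [hH, hB]
  rw [Finset.smul_sum, Finset.smul_sum, ← Finset.sum_add_distrib]
  refine Finset.sum_congr rfl fun i _ => ?_
  have hs : ∑ j, Q i j = Q i i + ∑ j, (if i = j then 0 else Q i j) := by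
    have : Q i i = ∑ j, (if i = j then Q i j else 0) := by
      rw [Finset.sum_ite_eq]
      simp
    rw [this, ← Finset.sum_add_distrib]
    refine Finset.sum_congr rfl fun j _ => ?_
    by_cases h : i = j
    · rw [if_pos h, if_pos h, add_zero]
    · rw [if_neg h, if_neg h, zero_add]
  have hn : ∑ j, (if i = j then 0 else - Q i j) = - ∑ j, (if i = j then 0 else Q i j) := by
    rw [← Finset.sum_neg_distrib]
    refine Finset.sum_congr rfl fun j _ => ?_
    by_cases h : i = j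
    · rw [if_pos h, if_pos h, neg_zero]
    · rw [if_neg h, if_neg h]
  rw [hs, hn]
  module

theorem rwyC_skew_sum {α M : Type} [Fintype α] [AddCommGroup M] [Module ℂ M] (X : α → α → ℂ)
    (hX : ∀ r p, X r p = - X p r) (s : α → α → M) (hs : ∀ r p, s r p = s p r) :
    ∑ p : α, ∑ r : α, X r p • s r p = 0 := by
  have h : ∑ p : α, ∑ r : α, X r p • s r p = - ∑ p : α, ∑ r : α, X r p • s r p := by
    conv_lhs => rw [Finset.sum_comm]
    rw [← Finset.sum_neg_distrib]
    refine Finset.sum_congr rfl fun p _ => ?_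
    rw [← Finset.sum_neg_distrib]
    refine Finset.sum_congr rfl fun r _ => ?_
    rw [hX p r, hs p r, neg_smul]
  have h2 : (2 : ℂ) • ∑ p : α, ∑ r : α, X r p • s r p = 0 := by
    rw [two_smul]
    nth_rewrite 1 [h]
    exact neg_add_cancel _
  exact (smul_eq_zero.1 h2).resolve_left two_ne_zero

theorem rwyC_bracket_F (X : Matrix (Ix n) (Ix n) ℂ) (hX : Xᵀ = -X) (p q : Ix n) :
    X * rwyF p q - rwyF p q * X = ∑ r : Ix n, X r p • rwyF r q + ∑ r : Ix n, X r q • rwyF p r := by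
  have hX' : ∀ a b, X a b = - X b a := by
    intro a b
    have := congrFun (congrFun hX b) a
    rw [Matrix.transpose_apply, Matrix.neg_apply] at this
    exact this
  ext a b
  have e1 : ∀ (u w : Ix n), (X * Matrix.single u w (1 : ℂ)) a b = if w = b then X a u else 0 := by
    intro u w
    rw [Matrix.mul_apply]
    simp [Matrix.single_apply, ite_and]
  have e2 : ∀ (u w : Ix n), (Matrix.single u w (1 : ℂ) * X) a b = if u = a then X w b else 0 := by
    intro u w
    rw [Matrix.mul_apply]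
    simp [Matrix.single_apply, ite_and]
  simp only [rwy_F_def, Matrix.sub_apply, Matrix.add_apply, Matrix.sum_apply, Matrix.smul_apply,
    mul_sub, sub_mul, smul_eq_mul, e1, e2, Matrix.single_apply, ite_and, mul_ite, mul_one, mul_zero,
    Finset.sum_sub_distrib, Finset.sum_ite_eq', Finset.mem_univ, if_true]
  have e3 : ∀ (c : Prop) [Decidable c] (f : Ix n → ℂ), (∑ x : Ix n, if c then (if x = b then f x else 0) else 0)
      = if c then f b else 0 := by
    intro c _ f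
    by_cases hc : c
    · simp [hc]
    · simp [hc]
  rw [e3, e3, hX' p b, hX' q b]
  split_ifs <;> ring

/-- LEAF L-RWY-CAS-COMM -/
theorem rwy_om_comm (R : StarRep Ty.D n ι) (X : Matrix (Ix n) (Ix n) ℂ) (hX : Ty.D.InG X) :
    R.ρ X * rwyOm R = rwyOm R * R.ρ X := by
  obtain ⟨a, ha⟩ : ∃ a : Ix n → Ix n → Matrix ι ι ℂ, a = fun p q => R.ρ (rwyF p q) := ⟨_, rfl⟩
  obtain ⟨x, hx⟩ : ∃ x : Matrix ι ι ℂ, x = R.ρ X := ⟨_, rfl⟩
  have hX' : ∀ r p, X r p = - X p r := by
    intro r p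
    have := congrFun (congrFun hX.1 p) r
    rw [Matrix.transpose_apply, Matrix.neg_apply] at this
    exact this
  have hbr : ∀ p q, x * a p q - a p q * x = ∑ r, X r p • a r q + ∑ r, X r q • a p r := by
    intro p q
    rw [ha, hx]
    show R.ρ X * R.ρ (rwyF p q) - R.ρ (rwyF p q) * R.ρ X = _
    rw [← R.bracket X _ hX (rwy_F_inG p q), rwyC_bracket_F X hX.1, map_add, map_sum, map_sum]
    simp only [map_smul]
  have hterm : ∀ p q, x * (a p q * a p q) - (a p q * a p q) * x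
      = (∑ r, X r p • (a r q * a p q + a p q * a r q))
        + ∑ r, X r q • (a p r * a p q + a p q * a p r) := by
    intro p q
    have : x * (a p q * a p q) - (a p q * a p q) * x
        = (x * a p q - a p q * x) * a p q + a p q * (x * a p q - a p q * x) := by noncomm_ring
    rw [this, hbr, add_mul, mul_add, Finset.sum_mul, Finset.sum_mul, Finset.mul_sum, Finset.mul_sum]
    simp only [smul_mul_assoc, mul_smul_comm, smul_add, Finset.sum_add_distrib]
    abel
  have hOm : rwyOm R = ∑ p, ∑ q, a p q * a p q := by rw [rwy_om_def, ha]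
  rw [← sub_eq_zero, hOm, ← hx, Finset.mul_sum, Finset.sum_mul, ← Finset.sum_sub_distrib]
  have h1 : ∀ p, x * ∑ q, a p q * a p q - (∑ q, a p q * a p q) * x
      = ∑ q, ((∑ r, X r p • (a r q * a p q + a p q * a r q))
        + ∑ r, X r q • (a p r * a p q + a p q * a p r)) := by
    intro p
    rw [Finset.mul_sum, Finset.sum_mul, ← Finset.sum_sub_distrib]
    exact Finset.sum_congr rfl fun q _ => hterm p q
  rw [Finset.sum_congr rfl fun p _ => h1 p]
  simp only [Finset.sum_add_distrib]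
  have z1 : ∑ p, ∑ q, ∑ r, X r p • (a r q * a p q + a p q * a r q) = 0 := by
    rw [Finset.sum_comm]
    refine Finset.sum_eq_zero fun q _ => ?_
    exact rwyC_skew_sum X hX' (fun r p => a r q * a p q + a p q * a r q)
      (fun r p => add_comm _ _)
  have z2 : ∑ p, ∑ q, ∑ r, X r q • (a p r * a p q + a p q * a p r) = 0 := by
    refine Finset.sum_eq_zero fun p _ => ?_
    exact rwyC_skew_sum X hX' (fun r q => a p r * a p q + a p q * a p r)
      (fun r q => add_comm _ _)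
  rw [z1, z2, add_zero]

/-- the Casimir operator commutes with the representation -/
theorem rwy_cas_comm (R : StarRep Ty.D n ι) (X : Matrix (Ix n) (Ix n) ℂ) (hX : Ty.D.InG X) :
    R.ρ X * R.casimir = R.casimir * R.ρ X := by
  rw [rwy_cas_std, mul_smul_comm, smul_mul_assoc, rwy_om_comm R X hX]

open scoped Classical in
/-- LEAF L-RWY-CAS-NORMAL : normal ordering -/
theorem rwy_cas_normal (R : StarRep Ty.D n ι) :
    R.casimir = ∑ i : Fin n, R.ρ (Hc (Pi.single i 1)) * R.ρ (Hc (Pi.single i 1)) +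
      (1 / 2 : ℂ) • rwySum (fun β : RootD n => if β.Pos then
        R.ρ (Hc β.vec) + (2 : ℂ) • ((R.ρ (rootVec β))ᴴ * R.ρ (rootVec β)) else 0) := by
  have h0 : R.casimir = ∑ i : Fin n, R.ρ (Hc (Pi.single i 1)) * R.ρ (Hc (Pi.single i 1)) +
      (1 / 2 : ℂ) • rwySum (fun β : RootD n => R.ρ (rootVec β) * (R.ρ (rootVec β))ᴴ) := rfl
  rw [h0, rwy_sum_split]
  refine congrArg (fun z => _ + (1 / 2 : ℂ) • z) (rwy_sum_congr _ _ fun β => ?_)
  by_cases hβ : β.Pos
  · rw [if_pos hβ, if_pos hβ]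
    have h1 : R.ρ (rootVec β.neg) = - (R.ρ (rootVec β))ᴴ := by
      rw [← R.star _ (isRootVec_rootVec β).1, rootVec_conjTranspose, map_neg, neg_neg]
    have h2 : R.ρ (rootVec β) * (R.ρ (rootVec β))ᴴ
        = R.ρ (Hc β.vec) + (R.ρ (rootVec β))ᴴ * R.ρ (rootVec β) := by
      rw [← rootVec_bracket, R.bracket _ _ (isRootVec_rootVec β).1 (inG_conjTranspose _ (isRootVec_rootVec β).1),
        R.star _ (isRootVec_rootVec β).1]
      abel
    rw [h1, conjTranspose_neg, conjTranspose_conjTranspose, neg_mul_neg, h2, two_smul]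
    abel
  · rw [if_neg hβ, if_neg hβ]

/-- LEAF L-RWY-CAS-HW : the value on a highest weight vector -/
theorem rwy_cas_hw (R : StarRep Ty.D n ι) (v : ι → ℂ) (lam : Vec n) (h : IsHW R v lam) :
    R.casimir.mulVec v = ((dot lam lam + 2 * dot lam (rhoV n) : ℝ) : ℂ) • v := by
  classical
  rw [rwy_cas_normal, Matrix.add_mulVec, Matrix.smul_mulVec]
  have h1 : (∑ i : Fin n, R.ρ (Hc (Pi.single i 1)) * R.ρ (Hc (Pi.single i 1))) *ᵥ v
      = ((dot lam lam : ℝ) : ℂ) • v := by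
    rw [Matrix.sum_mulVec]
    have : ∀ i : Fin n, (R.ρ (Hc (Pi.single i 1)) * R.ρ (Hc (Pi.single i 1))) *ᵥ v
        = ((lam i * lam i : ℝ) : ℂ) • v := by
      intro i
      rw [← Matrix.mulVec_mulVec, h.wt, Matrix.mulVec_smul, h.wt, sc_dot_single, smul_smul]
      push_cast
      rfl
    rw [Finset.sum_congr rfl fun i _ => this i, ← Finset.sum_smul]
    congr 1
    unfold dot
    push_cast
    rfl
  have h2 : (rwySum (fun β : RootD n => if β.Pos then
        R.ρ (Hc β.vec) + (2 : ℂ) • ((R.ρ (rootVec β))ᴴ * R.ρ (rootVec β)) else 0)) *ᵥ v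
      = ((4 * dot lam (rhoV n) : ℝ) : ℂ) • v := by
    have e1 := rwy_sum_map (n := n) (Matrix.mulVecBilin ℂ ℂ |>.flip v).toAddMonoidHom
      (fun β : RootD n => if β.Pos then
        R.ρ (Hc β.vec) + (2 : ℂ) • ((R.ρ (rootVec β))ᴴ * R.ρ (rootVec β)) else 0)
    have e2 := rwy_sum_map (n := n) ((LinearMap.toSpanSingleton ℂ (ι → ℂ) v).toAddMonoidHom.comp
      Complex.ofRealHom.toAddMonoidHom) (fun β : RootD n => if β.Pos then dot lam β.vec else 0)
    rw [← rwy_posSum_dot, rwy_posSum_eq]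
    refine Eq.trans e1 (Eq.trans ?_ e2.symm)
    refine rwy_sum_congr _ _ fun β => ?_
    by_cases hβ : β.Pos
    · rw [if_pos hβ, if_pos hβ]
      show (R.ρ (Hc β.vec) + (2 : ℂ) • ((R.ρ (rootVec β))ᴴ * R.ρ (rootVec β))) *ᵥ v
        = ((dot lam β.vec : ℝ) : ℂ) • v
      rw [Matrix.add_mulVec, Matrix.smul_mulVec, ← Matrix.mulVec_mulVec,
        h.top β _ hβ (isRootVec_rootVec β), Matrix.mulVec_zero, smul_zero, add_zero, h.wt]
    · rw [if_neg hβ, if_neg hβ]
      show (0 : Matrix ι ι ℂ) *ᵥ v = ((0 : ℝ) : ℂ) • v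
      simp
  rw [h1, h2, smul_smul, ← add_smul]
  congr 1
  push_cast
  ring

/-- (W0) -/
theorem rwy_casimir (R : StarRep Ty.D n ι) (v : ι → ℂ) (lam : Vec n) (h : IsHW R v lam) :
    ∀ a ∈ R.cyc v, R.casimir.mulVec a = ((dot lam lam + 2 * dot lam (rhoV n) : ℝ) : ℂ) • a := by
  set c : ℂ := ((dot lam lam + 2 * dot lam (rhoV n) : ℝ) : ℂ) with hc
  let S : Submodule ℂ (ι → ℂ) := LinearMap.ker (Matrix.toLin' R.casimir - c • LinearMap.id)
  have hmem : ∀ a, a ∈ S ↔ R.casimir.mulVec a = c • a := by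
    intro a
    rw [LinearMap.mem_ker, LinearMap.sub_apply, LinearMap.smul_apply, LinearMap.id_apply,
      Matrix.toLin'_apply, sub_eq_zero]
  have hS : R.Inv S := by
    intro X hX a ha
    rw [hmem] at ha ⊢
    rw [op_apply, Matrix.mulVec_mulVec, ← rwy_cas_comm R X hX, ← Matrix.mulVec_mulVec, ha,
      Matrix.mulVec_smul]
  have hv : v ∈ S := (hmem v).2 (rwy_cas_hw R v lam h)
  intro a ha
  exact (hmem a).1 (cyc_le R v S hS hv ha)

/-- generates the equation lemmas of the definitions of this file here (rule 6) -/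
theorem rwy_eqns_cas : True := by
  have := @rwyF.eq_1
  have := @rwyOm.eq_1
  trivial

end Claimed.Agent.R282
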