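import Claimed.Agent.R282.Rep.R.Api

/-!
# Row 282, Rep, package BP-REP-W, file 3 : symmetry of the weight multiplicities of a `*`-representation of `sl_2` (architect helper139)

ABSTRACT, paper-free.  Data (`RwySl2`): operators `e, f = e^*, h = [e,f]` on `ι → ℂ` and subspaces `V t` (`t : ℝ`) with `h = 2t` on `V t`, `e V t ≤ V (t+1)`, `f V t ≤ V (t-1)`, `V t = ⊥` for `|t|` large.  GOAL `rwy_sl2_symm : finrank (V t) = finrank (V (-t))` (PROVED below from the leaves).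
Notation `d t = finrank (V t)`, `p t = finrank (V t ⊓ ker e)`, `q t = finrank (V t ⊓ ker f)`.
* LEAF L-RWY-SL2-A = `rwy_sl2_rank` (rank-nullity for `f.domRestrict W`: `LinearMap.finrank_range_add_finrank_ker`; range `= W.map f`, kernel `≃ W ⊓ ker f`), `RwySl2.swap`
  (`adj`: conjugate: `star (f a) ⬝ᵥ b = star (star b ⬝ᵥ f a) = star (star (e b) ⬝ᵥ a) = star a ⬝ᵥ e b`; `hV`: `-h a = -(2(-t)) … `; `eV`/`fV`: `-t + 1 = -(t - 1)`).
* LEAF L-RWY-SL2-B = `rwy_sl2_orth`: `W := (V (t+1)).map f ≤ V t`; `orthC_rel`, `orthC_inf`, `Submodule.finrank_sup_add_finrank_inf_eq` give `d t = finrank W + finrank (V t ⊓ orthC W)`; and `V t ⊓ orthC W = V t ⊓ ker e`: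
  (⊇) `star (f b) ⬝ᵥ a = conj (star a ⬝ᵥ f b) = conj (star (e a) ⬝ᵥ b) = 0`; (⊆) `e a ∈ V (t+1)`, so `0 = star (f (e a)) ⬝ᵥ a = conj (star (e a) ⬝ᵥ e a)`, `star_dot_self_eq_zero`.
* LEAF L-RWY-SL2-C = `rwy_sl2_ef_pow` (induction on `k`: `e f^(k+1) a = f e f^k a + h f^k a`, `f^k a ∈ V (t - k)`), `rwy_sl2_pow_mem`.
* LEAF L-RWY-SL2-D = `rwy_sl2_prim_nat`: `f^k a ∈ V (t-k) = ⊥` for large `k`; take `m` minimal with `f^(m+1) a = 0` (`Nat.find`); `0 = e f^(m+1) a = (m+1)(2t-m) f^m a`, `f^m a ≠ 0`.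
* LEAF L-RWY-SL2-E = `rwy_sl2_prim_le`: if `V t ⊓ ker e = ⊥` trivial; otherwise `2t = m` by `rwy_sl2_prim_nat`, and `f^m` maps `V t ⊓ ker e` injectively into `V (t - m) ⊓ ker f = V (-t) ⊓ ker f`
  (for every nonzero `a` the `m'` of `rwy_sl2_prim_nat` equals `m`); `LinearMap.finrank_le_finrank_of_injective` for the restriction.
-/

set_option autoImplicit false

namespace Claimed.Agent.R282

open Matrix

variable {ι : Type} [Fintype ι] [DecidableEq ι]

/-- a graded `*`-representation of `sl_2` -/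
structure RwySl2 (e f h : (ι → ℂ) →ₗ[ℂ] (ι → ℂ)) (V : ℝ → Submodule ℂ (ι → ℂ)) : Prop where
  adj : ∀ a b, star (e a) ⬝ᵥ b = star a ⬝ᵥ f b
  ef : ∀ a, e (f a) - f (e a) = h a
  hV : ∀ t, ∀ a ∈ V t, h a = ((2 * t : ℝ) : ℂ) • a
  eV : ∀ t, ∀ a ∈ V t, e a ∈ V (t + 1)
  fV : ∀ t, ∀ a ∈ V t, f a ∈ V (t - 1)
  fin : ∃ N : ℕ, ∀ t : ℝ, (N : ℝ) ≤ |t| → V t = ⊥

variable {e f h : (ι → ℂ) →ₗ[ℂ] (ι → ℂ)} {V : ℝ → Submodule ℂ (ι → ℂ)}

/-- LEAF L-RWY-SL2-A : the symmetry `e ↔ f`, `t ↔ -t` -/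
theorem RwySl2.swap (H : RwySl2 e f h V) : RwySl2 f e (-h) (fun t => V (-t)) := by
  refine ⟨?_, ?_, ?_, ?_, ?_, ?_⟩
  · intro a b
    rw [Matrix.star_dotProduct, ← H.adj b a, ← Matrix.star_dotProduct]
  · intro a
    rw [LinearMap.neg_apply, ← H.ef a, neg_sub]
  · intro t a ha
    rw [LinearMap.neg_apply, H.hV (-t) a ha, ← neg_smul]
    congr 1
    push_cast
    ring
  · intro t a ha
    have h1 := H.fV (-t) a ha
    rw [show -t - 1 = -(t + 1) by ring] at h1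
    exact h1
  · intro t a ha
    have h1 := H.eV (-t) a ha
    rw [show -t + 1 = -(t - 1) by ring] at h1
    exact h1
  · obtain ⟨N, hN⟩ := H.fin
    refine ⟨N, fun t ht => hN (-t) ?_⟩
    rw [abs_neg]
    exact ht

/-- LEAF L-RWY-SL2-A : rank-nullity on a subspace -/
theorem rwy_sl2_rank (f : (ι → ℂ) →ₗ[ℂ] (ι → ℂ)) (W : Submodule ℂ (ι → ℂ)) :
    Module.finrank ℂ W = Module.finrank ℂ (W ⊓ LinearMap.ker f : Submodule ℂ (ι → ℂ)) +
      Module.finrank ℂ (W.map f) := by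
  have h1 := LinearMap.finrank_range_add_finrank_ker (f.domRestrict W)
  rw [LinearMap.range_domRestrict, LinearMap.ker_domRestrict] at h1
  have h2 : Module.finrank ℂ (W ⊓ LinearMap.ker f : Submodule ℂ (ι → ℂ))
      = Module.finrank ℂ ((LinearMap.ker f).comap W.subtype) := by
    rw [← Submodule.map_comap_subtype, Submodule.finrank_map_subtype_eq]
  omega

/-- LEAF L-RWY-SL2-B : `V t = (V t ⊓ ker e) ⊕ f V (t+1)` orthogonally -/
theorem rwy_sl2_orth (H : RwySl2 e f h V) (t : ℝ) :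
    Module.finrank ℂ (V t) = Module.finrank ℂ (V t ⊓ LinearMap.ker e : Submodule ℂ (ι → ℂ)) +
      Module.finrank ℂ ((V (t + 1)).map f) := by
  have hle : (V (t + 1)).map f ≤ V t := by
    rintro _ ⟨b, hb, rfl⟩
    have h1 := H.fV (t + 1) b hb
    rw [add_sub_cancel_right] at h1
    exact h1
  have h1 := orthC_rel _ _ hle
  have h2 := Submodule.finrank_sup_add_finrank_inf_eq ((V (t + 1)).map f)
    (V t ⊓ orthC ((V (t + 1)).map f))
  have h3 : (V (t + 1)).map f ⊓ (V t ⊓ orthC ((V (t + 1)).map f)) = ⊥ := by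
    rw [eq_bot_iff, ← orthC_inf ((V (t + 1)).map f)]
    exact inf_le_inf_left _ inf_le_right
  have h4 : V t ⊓ orthC ((V (t + 1)).map f) = V t ⊓ LinearMap.ker e := by
    ext a
    simp only [Submodule.mem_inf, LinearMap.mem_ker]
    constructor
    · rintro ⟨ha, ho⟩
      refine ⟨ha, ?_⟩
      have h5 : star (f (e a)) ⬝ᵥ a = 0 := ho _ ⟨e a, H.eV t a ha, rfl⟩
      rw [H.swap.adj] at h5
      exact (star_dot_self_eq_zero _).1 h5
    · rintro ⟨ha, hea⟩
      refine ⟨ha, ?_⟩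
      rintro _ ⟨b, _, rfl⟩
      rw [H.swap.adj, hea, dotProduct_zero]
  rw [h1, h3, h4, finrank_bot] at h2
  omega

/-- LEAF L-RWY-SL2-C -/
theorem rwy_sl2_pow_mem (H : RwySl2 e f h V) (t : ℝ) (a : ι → ℂ) (ha : a ∈ V t) (k : ℕ) :
    (f ^ k) a ∈ V (t - k) := by
  induction k with
  | zero =>
    rw [pow_zero, Nat.cast_zero, sub_zero]
    exact ha
  | succ k ih =>
    have h1 := H.fV _ _ ih
    rw [pow_succ', Module.End.mul_apply]
    rw [show t - (k : ℝ) - 1 = t - ((k + 1 : ℕ) : ℝ) by push_cast; ring] at h1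
    exact h1

/-- LEAF L-RWY-SL2-C -/
theorem rwy_sl2_ef_pow (H : RwySl2 e f h V) (t : ℝ) (a : ι → ℂ) (ha : a ∈ V t) (hea : e a = 0)
    (k : ℕ) : e ((f ^ (k + 1)) a) = ((((k : ℝ) + 1) * (2 * t - k) : ℝ) : ℂ) • (f ^ k) a := by
  induction k with
  | zero =>
    have h1 := H.ef a
    rw [hea, map_zero, sub_zero, H.hV t a ha] at h1
    rw [zero_add, pow_one, pow_zero, h1, Module.End.one_apply]
    congr 2
    push_cast
    ring
  | succ k ih =>
    have h1 := H.ef ((f ^ (k + 1)) a)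
    rw [ih, map_smul, H.hV _ _ (rwy_sl2_pow_mem H t a ha (k + 1))] at h1
    have h2 : (f ^ (k + 1 + 1)) a = f ((f ^ (k + 1)) a) := by
      rw [pow_succ' f (k + 1), Module.End.mul_apply]
    have h3 : f ((f ^ k) a) = (f ^ (k + 1)) a := by
      rw [pow_succ' f k, Module.End.mul_apply]
    rw [h2, sub_eq_iff_eq_add.1 h1, h3, ← add_smul]
    congr 1
    push_cast
    ring

/-- LEAF L-RWY-SL2-D : the weight of a primitive vector -/
theorem rwy_sl2_prim_nat (H : RwySl2 e f h V) (t : ℝ) (a : ι → ℂ) (ha : a ∈ V t) (hea : e a = 0)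
    (ha0 : a ≠ 0) : ∃ m : ℕ, 2 * t = m ∧ (f ^ m) a ≠ 0 ∧ (f ^ (m + 1)) a = 0 := by
  classical
  have hex : ∃ k : ℕ, (f ^ (k + 1)) a = 0 := by
    obtain ⟨N, hN⟩ := H.fin
    obtain ⟨k, hk⟩ := exists_nat_ge ((N : ℝ) + |t|)
    refine ⟨k, ?_⟩
    have h1 := rwy_sl2_pow_mem H t a ha (k + 1)
    have h2 : (N : ℝ) ≤ |t - ((k + 1 : ℕ) : ℝ)| := by
      have h3 : t ≤ |t| := le_abs_self t
      have h4 : -(t - ((k + 1 : ℕ) : ℝ)) ≤ |t - ((k + 1 : ℕ) : ℝ)| := neg_le_abs _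
      push_cast at h4 ⊢
      linarith
    rw [hN _ h2] at h1
    exact (Submodule.mem_bot ℂ).1 h1
  refine ⟨Nat.find hex, ?_, ?_, Nat.find_spec hex⟩
  · have hne : (f ^ (Nat.find hex)) a ≠ 0 := by
      rcases Nat.eq_zero_or_pos (Nat.find hex) with h0 | h0
      · rw [h0, pow_zero]
        exact ha0
      · have h1 := Nat.find_min hex (m := Nat.find hex - 1) (by omega)
        rw [Nat.sub_add_cancel h0] at h1
        exact h1
    have h1 := rwy_sl2_ef_pow H t a ha hea (Nat.find hex)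
    rw [Nat.find_spec hex, map_zero] at h1
    rcases smul_eq_zero.1 h1.symm with h2 | h2
    · have h3 : ((Nat.find hex : ℝ) + 1) * (2 * t - (Nat.find hex : ℝ)) = 0 := by exact_mod_cast h2
      rcases mul_eq_zero.1 h3 with h4 | h4
      · have : (0 : ℝ) ≤ (Nat.find hex : ℝ) := Nat.cast_nonneg _
        linarith
      · linarith
    · exact absurd h2 hne
  · rcases Nat.eq_zero_or_pos (Nat.find hex) with h0 | h0
    · rw [h0, pow_zero]
      exact ha0
    · have h1 := Nat.find_min hex (m := Nat.find hex - 1) (by omega)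
      rw [Nat.sub_add_cancel h0] at h1
      exact h1

/-- LEAF L-RWY-SL2-E -/
theorem rwy_sl2_prim_le (H : RwySl2 e f h V) (t : ℝ) :
    Module.finrank ℂ (V t ⊓ LinearMap.ker e : Submodule ℂ (ι → ℂ)) ≤
      Module.finrank ℂ (V (-t) ⊓ LinearMap.ker f : Submodule ℂ (ι → ℂ)) := by
  by_cases hbot : V t ⊓ LinearMap.ker e = ⊥
  · rw [hbot, finrank_bot]
    exact Nat.zero_le _
  · obtain ⟨a0, ha0, hne0⟩ := Submodule.exists_mem_ne_zero_of_ne_bot hbot
    obtain ⟨m, hm, -, -⟩ := rwy_sl2_prim_nat H t a0 ha0.1 (LinearMap.mem_ker.1 ha0.2) hne0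
    have key : ∀ a ∈ V t ⊓ LinearMap.ker e, a ≠ 0 → (f ^ m) a ≠ 0 ∧ (f ^ (m + 1)) a = 0 := by
      intro a ha hne
      obtain ⟨m', hm', h1, h2⟩ := rwy_sl2_prim_nat H t a ha.1 (LinearMap.mem_ker.1 ha.2) hne
      have : m' = m := by
        have : (m' : ℝ) = m := by rw [← hm', hm]
        exact_mod_cast this
      subst this
      exact ⟨h1, h2⟩
    have hmem : ∀ a : (V t ⊓ LinearMap.ker e : Submodule ℂ (ι → ℂ)),
        ((f ^ m).domRestrict (V t ⊓ LinearMap.ker e)) a ∈ V (-t) ⊓ LinearMap.ker f := by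
      rintro ⟨a, ha⟩
      rw [LinearMap.domRestrict_apply]
      show (f ^ m) a ∈ V (-t) ⊓ LinearMap.ker f
      refine ⟨?_, ?_⟩
      · have h1 := rwy_sl2_pow_mem H t a ha.1 m
        rw [show t - (m : ℝ) = -t by rw [← hm]; ring] at h1
        exact h1
      · rw [SetLike.mem_coe, LinearMap.mem_ker]
        by_cases hz : a = 0
        · rw [hz, map_zero, map_zero]
        · have h1 := (key a ha hz).2
          rw [pow_succ', Module.End.mul_apply] at h1
          exact h1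
    apply LinearMap.finrank_le_finrank_of_injective
      (f := ((f ^ m).domRestrict (V t ⊓ LinearMap.ker e)).codRestrict _ hmem)
    rw [← LinearMap.ker_eq_bot, LinearMap.ker_codRestrict, LinearMap.ker_eq_bot']
    rintro ⟨a, ha⟩ h0
    rw [LinearMap.domRestrict_apply] at h0
    change (f ^ m) a = 0 at h0
    by_contra hz
    have hz' : a ≠ 0 := fun e0 => hz (Subtype.ext e0)
    exact (key a ha hz').1 h0

theorem rwy_sl2_prim_eq (H : RwySl2 e f h V) (t : ℝ) :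
    Module.finrank ℂ (V t ⊓ LinearMap.ker e : Submodule ℂ (ι → ℂ)) =
      Module.finrank ℂ (V (-t) ⊓ LinearMap.ker f : Submodule ℂ (ι → ℂ)) := by
  refine le_antisymm (rwy_sl2_prim_le H t) ?_
  have h1 := rwy_sl2_prim_le H.swap t
  rw [neg_neg] at h1
  exact h1

theorem rwy_sl2_step (H : RwySl2 e f h V) (t : ℝ) :
    Module.finrank ℂ (V t) +
        Module.finrank ℂ (V (t + 1) ⊓ LinearMap.ker f : Submodule ℂ (ι → ℂ)) =
      Module.finrank ℂ (V (t + 1)) +
        Module.finrank ℂ (V t ⊓ LinearMap.ker e : Submodule ℂ (ι → ℂ)) := by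
  have h1 := rwy_sl2_orth H t
  have h2 := rwy_sl2_rank f (V (t + 1))
  omega

theorem rwy_sl2_shift (H : RwySl2 e f h V) (t : ℝ) :
    Module.finrank ℂ (V t) + Module.finrank ℂ (V (-(t + 1))) =
      Module.finrank ℂ (V (t + 1)) + Module.finrank ℂ (V (-t)) := by
  have h1 := rwy_sl2_step H t
  have h2 := rwy_sl2_step H (-(t + 1))
  have h3 := rwy_sl2_prim_eq H t
  have h4 := rwy_sl2_prim_eq H (-(t + 1))
  rw [show -(t + 1) + 1 = -t by ring] at h2
  rw [neg_neg] at h4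
  omega

/-- GOAL of this file -/
theorem rwy_sl2_symm (H : RwySl2 e f h V) (t : ℝ) :
    Module.finrank ℂ (V t) = Module.finrank ℂ (V (-t)) := by
  have key : ∀ k : ℕ, Module.finrank ℂ (V t) + Module.finrank ℂ (V (-(t + k))) =
      Module.finrank ℂ (V (t + k)) + Module.finrank ℂ (V (-t)) := by
    intro k
    induction k with
    | zero => rw [Nat.cast_zero, add_zero, add_comm]
    | succ k ih =>
      have h1 := rwy_sl2_shift H (t + k)
      rw [show t + (k : ℝ) + 1 = t + ((k + 1 : ℕ) : ℝ) by push_cast; ring] at h1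
      omega
  obtain ⟨N, hN⟩ := H.fin
  obtain ⟨k, hk⟩ := exists_nat_ge ((N : ℝ) + |t|)
  have hk1 : (N : ℝ) ≤ |t + k| := by
    have h1 : -|t| ≤ t := neg_abs_le t
    have h2 : t + k ≤ |t + k| := le_abs_self _
    linarith
  have h1 := key k
  rw [hN _ hk1, hN (-(t + k)) (by rw [abs_neg]; exact hk1)] at h1
  simpa using h1

end Claimed.Agent.R282
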