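import Claimed.Agent.R282.Rep.R.Irr

/-!
# Row 282, Rep, package BP-REP-W, file 1 : sums over `RootD n` (architect helper139)

`rwySum F = ∑_(β : RootD n) F β` written as the fourfold sum used in `StarRep.casimir` and `posSum` (both are `rwySum` up to `rfl`).  Everything is elementary `Finset.sum` manipulation.
LEAF L-RWY-SUM1 = `rwy_sum_neg`, `rwy_sum_split`;   LEAF L-RWY-SUM2 = `rwy_posSum_dot`.
* `rwy_sum_neg`: reindex `si ↦ !si`, `sj ↦ !sj` (`Equiv.sum_comp (Equiv.boolNot)` or `Fintype.sum_bool` + `add_comm`).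
* `rwy_sum_split`: `F β = (if β.Pos then F β else 0) + (if β.neg.Pos then F β else 0)` (exactly one of the two holds: `rootD_pos_or_neg`, `rwy_pos_neg`), `rwy_sum_add`, and `rwy_sum_neg` for
  `G β = if β.Pos then F β.neg else 0` (`β.neg.neg = β`).
* `rwy_posSum_dot`: `⟨i,j,_,si,sj⟩.Pos ↔ (i < j ∧ si = false) ∨ (j < i ∧ sj = false)` (`dot β.vec ρ = sgnB si (n-1-i) + sgnB sj (n-1-j)`); for `i < j` the two roots `e_i ± e_j` contribute `2 χ_i`; so the sum is
  `2 ∑_i ∑_(j > i) 2 χ_i = 4 ∑_i (n - 1 - i) χ_i`.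
-/

set_option autoImplicit false

namespace Claimed.Agent.R282

open Claims.C0456 Matrix

variable {n : ℕ}

/-- the sum over all elements of `RootD n` -/
def rwySum {M : Type} [AddCommMonoid M] (F : RootD n → M) : M :=
  ∑ i : Fin n, ∑ j : Fin n, ∑ si : Bool, ∑ sj : Bool,
    if h : i ≠ j then F ⟨i, j, h, si, sj⟩ else 0

open scoped Classical in
/-- sum over the positive elements of `RootD n` (every positive root `e_i ± e_j` occurs twice: as `(i,j)` and as `(j,i)`) -/
noncomputable def posSum (F : RootD n → ℝ) : ℝ :=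
  ∑ i : Fin n, ∑ j : Fin n, ∑ si : Bool, ∑ sj : Bool,
    if h : i ≠ j then (if (⟨i, j, h, si, sj⟩ : RootD n).Pos then F ⟨i, j, h, si, sj⟩ else 0) else 0

theorem rwy_sum_def {M : Type} [AddCommMonoid M] (F : RootD n → M) :
    rwySum F = ∑ i : Fin n, ∑ j : Fin n, ∑ si : Bool, ∑ sj : Bool,
      if h : i ≠ j then F ⟨i, j, h, si, sj⟩ else 0 := rfl

theorem rwy_sum_congr {M : Type} [AddCommMonoid M] (F G : RootD n → M) (h : ∀ β, F β = G β) :
    rwySum F = rwySum G := by
  rw [show F = G from funext h]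

theorem rwy_sum_zero {M : Type} [AddCommMonoid M] : rwySum (fun _ : RootD n => (0 : M)) = 0 := by
  simp [rwy_sum_def]

theorem rwy_sum_add {M : Type} [AddCommMonoid M] (F G : RootD n → M) :
    rwySum (fun β => F β + G β) = rwySum F + rwySum G := by
  simp only [rwy_sum_def, ← Finset.sum_add_distrib]
  refine Finset.sum_congr rfl fun i _ => Finset.sum_congr rfl fun j _ =>
    Finset.sum_congr rfl fun si _ => Finset.sum_congr rfl fun sj _ => ?_
  by_cases h : i ≠ j
  · simp only [dif_pos h]
  · simp only [dif_neg h, add_zero]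

theorem rwy_sum_map {M N : Type} [AddCommMonoid M] [AddCommMonoid N] (φ : M →+ N)
    (F : RootD n → M) : φ (rwySum F) = rwySum (fun β => φ (F β)) := by
  simp only [rwy_sum_def, map_sum]
  refine Finset.sum_congr rfl fun i _ => Finset.sum_congr rfl fun j _ =>
    Finset.sum_congr rfl fun si _ => Finset.sum_congr rfl fun sj _ => ?_
  by_cases h : i ≠ j
  · simp only [dif_pos h]
  · simp only [dif_neg h, map_zero]

theorem rwy_sum_smul {K M : Type} [AddCommMonoid M] [DistribSMul K M] (c : K) (F : RootD n → M) :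
    rwySum (fun β => c • F β) = c • rwySum F :=
  (rwy_sum_map (DistribSMul.toAddMonoidHom M c) F).symm

theorem rwy_sum_mul_right {A : Type} [NonUnitalNonAssocSemiring A] (F : RootD n → A) (c : A) :
    rwySum (fun β => F β * c) = rwySum F * c :=
  (rwy_sum_map (AddMonoidHom.mulRight c) F).symm

theorem rwy_neg_neg (β : RootD n) : β.neg.neg = β := by
  cases β
  simp [RootD.neg]

theorem rwy_pos_neg (β : RootD n) (h : β.Pos) : ¬ β.neg.Pos := by
  intro h'
  have h1 : 0 < dot β.vec (rhoV n) := h
  have h2 : 0 < dot β.neg.vec (rhoV n) := h'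
  rw [rootD_neg_vec] at h2
  have h3 : dot (-β.vec) (rhoV n) = - dot β.vec (rhoV n) := by
    simp [dot, Finset.sum_neg_distrib]
  rw [h3] at h2
  linarith

/-- LEAF L-RWY-SUM1 -/
theorem rwy_sum_neg {M : Type} [AddCommMonoid M] (F : RootD n → M) :
    rwySum (fun β => F β.neg) = rwySum F := by
  simp only [rwy_sum_def]
  refine Finset.sum_congr rfl fun i _ => Finset.sum_congr rfl fun j _ => ?_
  simp only [Fintype.sum_bool, RootD.neg]
  by_cases h : i ≠ j
  · simp only [dif_pos h, Bool.not_true, Bool.not_false]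
    abel
  · simp only [dif_neg h]

open scoped Classical in
/-- LEAF L-RWY-SUM1 -/
theorem rwy_sum_split {M : Type} [AddCommMonoid M] (F : RootD n → M) :
    rwySum F = rwySum (fun β => if β.Pos then F β + F β.neg else 0) := by
  have h1 : rwySum F
      = rwySum (fun β => (if β.Pos then F β else 0) + (if β.neg.Pos then F β else 0)) := by
    refine rwy_sum_congr _ _ fun β => ?_
    by_cases h : β.Pos
    · rw [if_pos h, if_neg (rwy_pos_neg β h), add_zero]
    · rw [if_neg h, if_pos ((rootD_pos_or_neg β).resolve_left h), zero_add]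
  have h2 : rwySum (fun β : RootD n => if β.neg.Pos then F β else 0)
      = rwySum (fun β : RootD n => if β.Pos then F β.neg else 0) := by
    rw [← rwy_sum_neg (fun β : RootD n => if β.Pos then F β.neg else 0)]
    refine rwy_sum_congr _ _ fun β => ?_
    rw [rwy_neg_neg]
  rw [h1, rwy_sum_add, h2, ← rwy_sum_add]
  refine rwy_sum_congr _ _ fun β => ?_
  by_cases h : β.Pos
  · simp only [if_pos h]
  · simp only [if_neg h, add_zero]

open scoped Classical in
theorem rwy_posSum_eq (F : RootD n → ℝ) : posSum F = rwySum (fun β => if β.Pos then F β else 0) := rfl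

open scoped Classical in
theorem rwy_posSum_inner (χ : Vec n) (i j : Fin n) :
    (∑ si : Bool, ∑ sj : Bool,
      if h : i ≠ j then (if (⟨i, j, h, si, sj⟩ : RootD n).Pos then
        dot χ (⟨i, j, h, si, sj⟩ : RootD n).vec else 0) else 0)
      = (if i < j then 2 * χ i else 0) + (if j < i then 2 * χ j else 0) := by
  rcases lt_trichotomy i j with h | h | h
  · simp only [dif_pos (ne_of_lt h), rwd_pos_iff i j h, if_pos h, if_neg (not_lt_of_gt h),
      Fintype.sum_bool, dot_comm χ, rwd_dot_vec, sgnB]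
    simp
    ring
  · subst h
    simp
  · simp only [dif_pos (ne_of_gt h), rwd_pos_iff' i j h, if_pos h, if_neg (not_lt_of_gt h),
      Fintype.sum_bool, dot_comm χ, rwd_dot_vec, sgnB]
    simp
    ring

theorem rwy_sum_Ioi (χ : Vec n) :
    ∑ i : Fin n, ∑ j : Fin n, (if i < j then 2 * χ i else 0) = 2 * dot χ (rhoV n) := by
  rw [dot, Finset.mul_sum]
  refine Finset.sum_congr rfl fun i _ => ?_
  rw [← Finset.sum_filter, Finset.sum_const, nsmul_eq_mul]
  have h1 : (Finset.univ.filter fun j : Fin n => i < j) = Finset.Ioi i := by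
    ext j
    simp
  rw [h1, Fin.card_Ioi, rhoV]
  have h2 : ((n - 1 - (i : ℕ) : ℕ) : ℝ) = (n : ℝ) - 1 - ((i : ℕ) : ℝ) := by
    have := i.2
    rw [Nat.cast_sub (by omega), Nat.cast_sub (by omega)]
    norm_num
  rw [h2]
  ring

/-- LEAF L-RWY-SUM2 : `∑_(β > 0) β = 2ρ`, every positive root counted twice -/
theorem rwy_posSum_dot (χ : Vec n) : posSum (fun β => dot χ β.vec) = 4 * dot χ (rhoV n) := by
  classical
  rw [posSum]
  simp only [rwy_posSum_inner, Finset.sum_add_distrib]
  have h : ∑ i : Fin n, ∑ j : Fin n, (if j < i then 2 * χ j else 0)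
      = ∑ i : Fin n, ∑ j : Fin n, (if i < j then 2 * χ i else 0) := Finset.sum_comm
  rw [h, rwy_sum_Ioi]
  ring

theorem rwy_posSum_add (F G : RootD n → ℝ) : posSum (fun β => F β + G β) = posSum F + posSum G := by
  classical
  rw [rwy_posSum_eq, rwy_posSum_eq, rwy_posSum_eq, ← rwy_sum_add]
  refine rwy_sum_congr _ _ fun β => ?_
  by_cases h : β.Pos
  · simp only [if_pos h]
  · simp only [if_neg h, add_zero]

theorem rwy_posSum_mul (F : RootD n → ℝ) (c : ℝ) : posSum (fun β => F β * c) = posSum F * c := by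
  classical
  rw [rwy_posSum_eq, rwy_posSum_eq, ← rwy_sum_mul_right]
  refine rwy_sum_congr _ _ fun β => ?_
  by_cases h : β.Pos
  · simp only [if_pos h]
  · simp only [if_neg h, zero_mul]

theorem rwy_posSum_congr (F G : RootD n → ℝ) (h : ∀ β, β.Pos → F β = G β) : posSum F = posSum G := by
  classical
  rw [rwy_posSum_eq, rwy_posSum_eq]
  refine rwy_sum_congr _ _ fun β => ?_
  by_cases hβ : β.Pos
  · simp only [if_pos hβ, h β hβ]
  · simp only [if_neg hβ]

/-- generates the equation lemmas of the definitions of this file here (rule 6) -/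
theorem rwy_eqns_sum : True := by
  have := @rwySum.eq_1
  have := @posSum.eq_1
  trivial

end Claimed.Agent.R282
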